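import Mathlib

/-!
# P205: a compact curve has an even number of endpoints

No classification: the arcs of a finite cover cut the curve into edges, and a double count of the
incidences between edges and cut points gives parity.
-/

namespace Vale.Agent.P205.Topo

open Set Finset Topology

noncomputable section

variable {X : Type*} [TopologicalSpace X]

/-- An arc `γ '' [a, 1]` of `Z`, relatively open inside the open set `U`, with at most its left
end in `B`. -/
structure Arc (Z B : Set X) where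
  γ : ℝ → X
  a : ℝ
  U : Set X
  lt : a < 1
  cont : ContinuousOn γ (Set.Icc a 1)
  inj : InjOn γ (Set.Icc a 1)
  mem : ∀ t ∈ Set.Icc a 1, γ t ∈ Z
  openU : IsOpen U
  no_end : ∀ t ∈ Set.Ioc a 1, γ t ∉ B
  inter : ∀ x, x ∈ U ∩ Z ↔
    (∃ t ∈ Set.Ioo a 1, γ t = x) ∨ (γ a ∈ B ∧ x = γ a)

/-- A compact curve, covered by arcs, has an even number of endpoints. -/
theorem even_ends [T2Space X] {Z B : Set X} (hZ : IsCompact Z) (hB : B ⊆ Z)
    (hcov : ∀ z ∈ Z, ∃ A : Arc Z B, z ∈ A.U) : B.Finite ∧ Even B.ncard := by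
  classical
  choose A hA using hcov
  obtain ⟨t, ht⟩ := hZ.elim_finite_subcover (fun z : Z => (A z z.2).U)
    (fun z => (A z z.2).openU) (fun z hz => mem_iUnion.2 ⟨⟨z, hz⟩, hA z hz⟩)
  set I := {z : Z // z ∈ t}
  let α : I → Arc Z B := fun i => A i.1 i.1.2
  have cov : ∀ x ∈ Z, ∃ i, x ∈ (α i).U := by
    intro x hx
    obtain ⟨z, hz, hxz⟩ := mem_iUnion₂.1 (ht hx)
    exact ⟨⟨z, hz⟩, hxz⟩
  -- the cut points
  let S : Finset X := Finset.univ.biUnion fun i => {(α i).γ (α i).a, (α i).γ 1}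
  have hSZ : ∀ s ∈ S, s ∈ Z := by
    intro s hs
    simp only [S, Finset.mem_biUnion, Finset.mem_insert, Finset.mem_singleton, Finset.mem_univ,
      true_and] at hs
    obtain ⟨i, rfl | rfl⟩ := hs
    · exact (α i).mem _ ⟨le_rfl, (α i).lt.le⟩
    · exact (α i).mem _ ⟨(α i).lt.le, le_rfl⟩
  have hendL : ∀ i, (α i).γ (α i).a ∈ S := fun i =>
    Finset.mem_biUnion.2 ⟨i, Finset.mem_univ i, by simp⟩
  have hendR : ∀ i, (α i).γ 1 ∈ S := fun i =>
    Finset.mem_biUnion.2 ⟨i, Finset.mem_univ i, by simp⟩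
  have hBS : B ⊆ S := by
    intro x hx
    obtain ⟨i, hi⟩ := cov x (hB hx)
    rcases ((α i).inter x).1 ⟨hi, hB hx⟩ with ⟨u, hu, rfl⟩ | ⟨-, rfl⟩
    · exact absurd hx ((α i).no_end u ⟨hu.1, hu.2.le⟩)
    · exact hendL i
  refine ⟨S.finite_toSet.subset hBS, ?_⟩
  -- the parameters of the cut points on each arc
  have hfin : ∀ i, {u | u ∈ Set.Icc (α i).a 1 ∧ (α i).γ u ∈ S}.Finite := fun i =>
    Set.Finite.of_finite_image (S.finite_toSet.subset (image_subset_iff.2 fun u hu => hu.2))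
      ((α i).inj.mono fun u hu => hu.1)
  let T : I → Finset ℝ := fun i => (hfin i).toFinset
  have memT : ∀ i u, u ∈ T i ↔ u ∈ Set.Icc (α i).a 1 ∧ (α i).γ u ∈ S := fun i u => by simp [T]
  let img : I → ℝ → ℝ → Set X := fun i c d => (α i).γ '' Set.Ioo c d
  let Edge : Set X → Prop := fun C => ∃ i c d, c ∈ T i ∧ d ∈ T i ∧ c < d ∧
    (∀ u ∈ Set.Ioo c d, u ∉ T i) ∧ C = img i c d
  -- the interval around a parameter which is not a cut
  have around : ∀ i u, u ∈ Set.Icc (α i).a 1 → u ∉ T i →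
      ∃ c d, c ∈ T i ∧ d ∈ T i ∧ u ∈ Set.Ioo c d ∧ ∀ w ∈ Set.Ioo c d, w ∉ T i := by
    intro i u hu hn
    have h1 : ((T i).filter (· < u)).Nonempty := by
      refine ⟨(α i).a, Finset.mem_filter.2
        ⟨(memT i _).2 ⟨⟨le_rfl, (α i).lt.le⟩, hendL i⟩, hu.1.lt_of_ne ?_⟩⟩
      rintro rfl
      exact hn ((memT i _).2 ⟨hu, hendL i⟩)
    have h2 : ((T i).filter (u < ·)).Nonempty := by
      refine ⟨1, Finset.mem_filter.2
        ⟨(memT i _).2 ⟨⟨(α i).lt.le, le_rfl⟩, hendR i⟩, hu.2.lt_of_ne ?_⟩⟩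
      rintro rfl
      exact hn ((memT i _).2 ⟨hu, hendR i⟩)
    have hc := Finset.mem_filter.1 (Finset.max'_mem _ h1)
    have hd := Finset.mem_filter.1 (Finset.min'_mem _ h2)
    refine ⟨_, _, hc.1, hd.1, ⟨hc.2, hd.2⟩, fun w hw hwT => ?_⟩
    rcases lt_trichotomy w u with h | h | h
    · exact absurd (Finset.le_max' _ w (Finset.mem_filter.2 ⟨hwT, h⟩)) (not_le.2 hw.1)
    · exact hn (h ▸ hwT)
    · exact absurd (Finset.min'_le _ w (Finset.mem_filter.2 ⟨hwT, h⟩)) (not_le.2 hw.2)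
  have sub : ∀ i c d, c ∈ T i → d ∈ T i → Set.Ioo c d ⊆ Set.Icc (α i).a 1 := fun i c d hc hd w hw =>
    ⟨((memT i c).1 hc).1.1.trans hw.1.le, hw.2.le.trans ((memT i d).1 hd).1.2⟩
  have edge_props : ∀ C, Edge C → IsPreconnected C ∧ C ⊆ Z ∧ Disjoint C (S : Set X) := by
    rintro C ⟨i, c, d, hc, hd, -, hno, rfl⟩
    refine ⟨isPreconnected_Ioo.image _ ((α i).cont.mono (sub i c d hc hd)),
      image_subset_iff.2 fun w hw => (α i).mem w (sub i c d hc hd hw), Set.disjoint_left.2 ?_⟩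
    rintro _ ⟨w, hw, rfl⟩ hS
    exact hno w hw ((memT i w).2 ⟨sub i c d hc hd hw, hS⟩)
  -- an edge meeting an arc off the cut points lies in one of the edges of that arc
  have localise : ∀ C, Edge C → ∀ j u, u ∈ Set.Icc (α j).a 1 → (α j).γ u ∈ C →
      ∀ c d, c ∈ T j → d ∈ T j → u ∈ Set.Ioo c d → C ⊆ img j c d := by
    intro C hC j u hu huC c d hc hd hucd
    obtain ⟨hconn, hCZ, hCS⟩ := edge_props C hC
    have hcI := ((memT j c).1 hc).1
    have hdI := ((memT j d).1 hd).1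
    have hne : ∀ w ∈ Set.Icc (α j).a 1, (α j).γ w ∈ C → w ≠ (α j).a ∧ w ≠ 1 := fun w _ hwC =>
      ⟨fun h => Set.disjoint_left.1 hCS hwC (h ▸ hendL j),
        fun h => Set.disjoint_left.1 hCS hwC (h ▸ hendR j)⟩
    have himg : IsClosed ((α j).γ '' Set.Icc (α j).a 1) :=
      (isCompact_Icc.image_of_continuousOn (α j).cont).isClosed
    have inU : ∀ w ∈ Set.Icc (α j).a 1, (α j).γ w ∈ C → (α j).γ w ∈ (α j).U := fun w hw hwC =>
      (((α j).inter _).2 (Or.inl ⟨w, ⟨hw.1.lt_of_ne (hne w hw hwC).1.symm,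
        hw.2.lt_of_ne (hne w hw hwC).2⟩, rfl⟩)).1
    have hsub : C ⊆ (α j).γ '' Set.Icc (α j).a 1 := by
      intro x hx
      by_contra hxn
      obtain ⟨y, hyC, hyU, hyn⟩ := hconn _ _ (α j).openU himg.isOpen_compl
        (fun y hy => by
          by_cases h : y ∈ (α j).γ '' Set.Icc (α j).a 1
          · obtain ⟨w, hw, rfl⟩ := h; exact Or.inl (inU w hw hy)
          · exact Or.inr h)
        ⟨_, huC, inU u hu huC⟩ ⟨x, hx, hxn⟩
      rcases ((α j).inter y).1 ⟨hyU, hCZ hyC⟩ with ⟨w, hw, rfl⟩ | ⟨-, rfl⟩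
      · exact hyn ⟨w, ⟨hw.1.le, hw.2.le⟩, rfl⟩
      · exact hyn ⟨_, ⟨le_rfl, (α j).lt.le⟩, rfl⟩
    -- both sides of a cut parameter cannot be met
    have side : ∀ w ∈ T j, ∀ x y, x ∈ Set.Icc (α j).a 1 → y ∈ Set.Icc (α j).a 1 →
        (α j).γ x ∈ C → (α j).γ y ∈ C → x < w → w < y → False := by
      intro w hw x y hx hy hxC hyC hxw hwy
      have hwI := ((memT j w).1 hw).1
      obtain ⟨z, hzC, ⟨p, hp, hpz⟩, ⟨q, hq, hqz⟩⟩ := isPreconnected_closed_iff.1 hconn
        ((α j).γ '' Set.Icc (α j).a w) ((α j).γ '' Set.Icc w 1)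
        (isCompact_Icc.image_of_continuousOn ((α j).cont.mono (Set.Icc_subset_Icc_right hwI.2))).isClosed
        (isCompact_Icc.image_of_continuousOn ((α j).cont.mono (Set.Icc_subset_Icc_left hwI.1))).isClosed
        (fun z hz => by
          obtain ⟨p, hp, rfl⟩ := hsub hz
          rcases le_total p w with h | h
          · exact Or.inl ⟨p, ⟨hp.1, h⟩, rfl⟩
          · exact Or.inr ⟨p, ⟨h, hp.2⟩, rfl⟩)
        ⟨_, hxC, x, ⟨hx.1, hxw.le⟩, rfl⟩ ⟨_, hyC, y, ⟨hwy.le, hy.2⟩, rfl⟩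
      have hpq : p = q := (α j).inj ⟨hp.1, hp.2.trans hwI.2⟩ ⟨hwI.1.trans hq.1, hq.2⟩ (hpz.trans hqz.symm)
      have : p = w := le_antisymm hp.2 (hpq ▸ hq.1)
      exact Set.disjoint_left.1 hCS hzC (hpz ▸ this ▸ ((memT j w).1 hw).2)
    intro x hx
    obtain ⟨w, hw, rfl⟩ := hsub hx
    refine ⟨w, ⟨?_, ?_⟩, rfl⟩
    · rcases lt_trichotomy c w with h | h | h
      · exact h
      · exact absurd (h ▸ ((memT j c).1 hc).2) fun hS => Set.disjoint_left.1 hCS hx hS
      · exact (side c hc w u hw hu hx huC h hucd.1).elim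
    · rcases lt_trichotomy w d with h | h | h
      · exact h
      · exact absurd (h ▸ ((memT j d).1 hd).2) fun hS => Set.disjoint_left.1 hCS hx hS
      · exact (side d hd u w hu hw huC hx hucd.2 h).elim
  -- two edges which meet are equal
  have meet : ∀ C C', Edge C → Edge C' → ∀ x, x ∈ C → x ∈ C' → C = C' := by
    intro C C' hC hC' x hx hx'
    obtain ⟨i, c, d, hc, hd, -, hno, rfl⟩ := hC
    obtain ⟨j, c', d', hc', hd', hlt', hno', rfl⟩ := hC'
    obtain ⟨u, hu, rfl⟩ := hx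
    obtain ⟨u', hu', he⟩ := hx'
    apply Set.Subset.antisymm
    · exact localise _ ⟨i, c, d, hc, hd, hu.1.trans hu.2, hno, rfl⟩ j u' (sub j c' d' hc' hd' hu')
        ⟨u, hu, he.symm⟩ c' d' hc' hd' hu'
    · exact localise _ ⟨j, c', d', hc', hd', hlt', hno', rfl⟩ i u (sub i c d hc hd hu)
        ⟨u', hu', he⟩ c d hc hd hu
  -- the finite set of edges
  let E : Finset (Set X) := Finset.univ.biUnion fun i =>
    (((T i) ×ˢ (T i)).filter fun p => p.1 < p.2 ∧ ∀ u ∈ Set.Ioo p.1 p.2, u ∉ T i).image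
      fun p => img i p.1 p.2
  have memE : ∀ C, C ∈ E ↔ Edge C := by
    intro C
    simp only [E, Finset.mem_biUnion, Finset.mem_univ, true_and, Finset.mem_image,
      Finset.mem_filter, Finset.mem_product, Prod.exists]
    constructor
    · rintro ⟨i, c, d, ⟨⟨hc, hd⟩, h1, h2⟩, rfl⟩; exact ⟨i, c, d, hc, hd, h1, h2, rfl⟩
    · rintro ⟨i, c, d, hc, hd, h1, h2, rfl⟩; exact ⟨i, c, d, ⟨⟨hc, hd⟩, h1, h2⟩, rfl⟩
  -- an edge has two ends
  have two : ∀ C ∈ E, (S.filter fun s => s ∈ closure C).card = 2 := by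
    intro C hC
    obtain ⟨i, c, d, hc, hd, hlt, hno, rfl⟩ := (memE C).1 hC
    obtain ⟨hcI, hcS⟩ := (memT i c).1 hc
    obtain ⟨hdI, hdS⟩ := (memT i d).1 hd
    have hsub : Set.Icc c d ⊆ Set.Icc (α i).a 1 := Set.Icc_subset_Icc hcI.1 hdI.2
    have hcl : closure (img i c d) = (α i).γ '' Set.Icc c d := by
      apply Set.Subset.antisymm
      · exact closure_minimal (image_mono Set.Ioo_subset_Icc_self)
          (isCompact_Icc.image_of_continuousOn ((α i).cont.mono hsub)).isClosed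
      · rw [← closure_Ioo hlt.ne]
        exact ContinuousOn.image_closure ((closure_Ioo hlt.ne).symm ▸ (α i).cont.mono hsub)
    have : (S.filter fun s => s ∈ closure (img i c d)) = {(α i).γ c, (α i).γ d} := by
      ext s
      simp only [Finset.mem_filter, Finset.mem_insert, Finset.mem_singleton, hcl]
      constructor
      · rintro ⟨hs, w, hw, rfl⟩
        rcases hw.1.eq_or_lt with h | h
        · exact Or.inl (h ▸ rfl)
        rcases hw.2.eq_or_lt with h' | h'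
        · exact Or.inr (h' ▸ rfl)
        exact absurd ((memT i w).2 ⟨hsub hw, hs⟩) (hno w ⟨h, h'⟩)
      · rintro (rfl | rfl)
        · exact ⟨hcS, c, ⟨le_rfl, hlt.le⟩, rfl⟩
        · exact ⟨hdS, d, ⟨hlt.le, le_rfl⟩, rfl⟩
    rw [this, Finset.card_pair fun h => hlt.ne ((α i).inj hcI hdI h)]
  -- a cut point has one edge if it is an end and two otherwise
  have deg : ∀ s ∈ S, (E.filter fun C => s ∈ closure C).card = if s ∈ B then 1 else 2 := by
    intro s hs
    obtain ⟨i, hi⟩ := cov s (hSZ s hs)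
    set β := α i
    obtain ⟨u, hu, hu1, rfl, hua⟩ : ∃ u, u ∈ Set.Icc β.a 1 ∧ u < 1 ∧ β.γ u = s ∧
        (u = β.a ↔ s ∈ B) := by
      rcases (β.inter s).1 ⟨hi, hSZ s hs⟩ with ⟨u, hu, rfl⟩ | ⟨hb, rfl⟩
      · exact ⟨u, ⟨hu.1.le, hu.2.le⟩, hu.2, rfl,
          ⟨fun h => absurd h hu.1.ne', fun h => absurd h (β.no_end u ⟨hu.1, hu.2.le⟩)⟩⟩
      · exact ⟨β.a, ⟨le_rfl, β.lt.le⟩, β.lt, rfl, ⟨fun _ => hb, fun _ => rfl⟩⟩
    have huT : u ∈ T i := (memT i u).2 ⟨hu, hs⟩
    have h2 : ((T i).filter (u < ·)).Nonempty :=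
      ⟨1, Finset.mem_filter.2 ⟨(memT i _).2 ⟨⟨β.lt.le, le_rfl⟩, hendR i⟩, hu1⟩⟩
    set d := ((T i).filter (u < ·)).min' h2
    obtain ⟨hdT, hud⟩ := Finset.mem_filter.1 (Finset.min'_mem _ h2)
    have hR : Edge (img i u d) := ⟨i, u, d, huT, hdT, hud, fun w hw hwT =>
      absurd (Finset.min'_le _ w (Finset.mem_filter.2 ⟨hwT, hw.1⟩)) (not_le.2 hw.2), rfl⟩
    have incl : ∀ c d', c ∈ T i → d' ∈ T i → c < d' → u = c ∨ u = d' →
        β.γ u ∈ closure (img i c d') := by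
      intro c d' hc hd' hlt hor
      have hsub : Set.Icc c d' ⊆ Set.Icc β.a 1 :=
        Set.Icc_subset_Icc ((memT i c).1 hc).1.1 ((memT i d').1 hd').1.2
      refine ContinuousOn.image_closure ((closure_Ioo hlt.ne).symm ▸ β.cont.mono hsub) ⟨u, ?_, rfl⟩
      rw [closure_Ioo hlt.ne]
      rcases hor with rfl | rfl
      · exact ⟨le_rfl, hlt.le⟩
      · exact ⟨hlt.le, le_rfl⟩
    -- every incident edge is the edge to the left or to the right
    have key : ∀ C, Edge C → β.γ u ∈ closure C →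
        C = img i u d ∨ ∃ c, c ∈ T i ∧ c < u ∧ (∀ w ∈ Set.Ioo c u, w ∉ T i) ∧ C = img i c u := by
      intro C hC hcl
      obtain ⟨hconn, hCZ, hCS⟩ := edge_props C hC
      -- a small neighbourhood
      let K : Set ℝ := {w | w ∈ Set.Icc β.a 1 ∧ ∃ v ∈ T i, v ≠ u ∧ (w ≤ v ∧ v < u ∨ u < v ∧ v ≤ w)}
      have hK : IsClosed (β.γ '' K) := by
        have hKeq : K = ⋃ v ∈ (T i).filter (· ≠ u),
            if v < u then Set.Icc β.a v else Set.Icc v 1 := by
          ext w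
          simp only [K, mem_ofPred_eq, mem_iUnion, Finset.mem_filter]
          constructor
          · rintro ⟨hw, v, hv, hne, ⟨h1, h2⟩ | ⟨h1, h2⟩⟩
            · exact ⟨v, ⟨hv, hne⟩, by rw [if_pos h2]; exact ⟨hw.1, h1⟩⟩
            · exact ⟨v, ⟨hv, hne⟩, by rw [if_neg (not_lt.2 h1.le)]; exact ⟨h2, hw.2⟩⟩
          · rintro ⟨v, ⟨hv, hne⟩, hw⟩
            obtain ⟨hvI, -⟩ := (memT i v).1 hv
            by_cases hvu : v < u
            · rw [if_pos hvu] at hw
              exact ⟨⟨hw.1, hw.2.trans hvI.2⟩, v, hv, hne, Or.inl ⟨hw.2, hvu⟩⟩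
            · rw [if_neg hvu] at hw
              exact ⟨⟨hvI.1.trans hw.1, hw.2⟩, v, hv, hne,
                Or.inr ⟨(not_lt.1 hvu).lt_of_ne hne.symm, hw.1⟩⟩
        refine (IsCompact.image_of_continuousOn ?_ (β.cont.mono fun w hw => hw.1)).isClosed
        rw [hKeq]
        refine (Finset.finite_toSet _).isCompact_biUnion fun v _ => ?_
        split_ifs <;> exact isCompact_Icc
      have hnot : β.γ u ∉ β.γ '' K := by
        rintro ⟨w, ⟨hw, v, -, -, h⟩, he⟩
        rcases h with ⟨h1, h2⟩ | ⟨h1, h2⟩ <;> linarith [β.inj hw hu he]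
      obtain ⟨x, ⟨hxU, hxK⟩, hxC⟩ := mem_closure_iff.1 hcl _ (β.openU.inter hK.isOpen_compl)
        ⟨hi, hnot⟩
      obtain ⟨w, hw, rfl⟩ : ∃ w ∈ Set.Icc β.a 1, β.γ w = x := by
        rcases (β.inter x).1 ⟨hxU, hCZ hxC⟩ with ⟨w, hw, rfl⟩ | ⟨-, rfl⟩
        · exact ⟨w, ⟨hw.1.le, hw.2.le⟩, rfl⟩
        · exact ⟨_, ⟨le_rfl, β.lt.le⟩, rfl⟩
      have hwT : w ∉ T i := fun h => Set.disjoint_left.1 hCS hxC ((memT i w).1 h).2
      obtain ⟨c, d', hc, hd', hwcd, hno⟩ := around i w hw hwT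
      have hEq : C = img i c d' :=
        meet C _ hC ⟨i, c, d', hc, hd', hwcd.1.trans hwcd.2, hno, rfl⟩ _ hxC ⟨w, hwcd, rfl⟩
      rcases lt_trichotomy u w with h | h | h
      · left
        have hcu : c = u := by
          by_contra hne
          rcases lt_or_gt_of_ne hne with h' | h'
          · exact hno u ⟨h', h.trans hwcd.2⟩ huT
          · exact hxK ⟨w, ⟨hw, c, hc, h'.ne', Or.inr ⟨h', hwcd.1.le⟩⟩, rfl⟩
        subst hcu
        exact meet C _ hC hR _ hxC ⟨w, ⟨h, hwcd.2.trans_le (le_of_not_gt fun hdd =>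
          hno d ⟨hud, hdd⟩ hdT)⟩, rfl⟩
      · exact absurd huT (h ▸ hwT)
      · right
        have hdu : d' = u := by
          by_contra hne
          rcases lt_or_gt_of_ne hne with h' | h'
          · exact hxK ⟨w, ⟨hw, d', hd', h'.ne, Or.inl ⟨hwcd.2.le, h'⟩⟩, rfl⟩
          · exact hno u ⟨hwcd.1.trans h, h'⟩ huT
        subst hdu
        exact ⟨c, hc, hwcd.1.trans h, hno, hEq⟩
    by_cases hb : β.γ u ∈ B
    · rw [if_pos hb]
      refine Finset.card_eq_one.2 ⟨img i u d, Finset.ext fun C => ?_⟩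
      simp only [Finset.mem_filter, Finset.mem_singleton, memE]
      constructor
      · rintro ⟨hC, hcl⟩
        rcases key C hC hcl with rfl | ⟨c, hc, hcu, -, -⟩
        · rfl
        · linarith [((memT i c).1 hc).1.1, hua.2 hb]
      · rintro rfl; exact ⟨hR, incl u d huT hdT hud (Or.inl rfl)⟩
    · rw [if_neg hb]
      have hau : β.a < u := hu.1.lt_of_ne fun h => hb (hua.1 h.symm)
      have h1 : ((T i).filter (· < u)).Nonempty :=
        ⟨β.a, Finset.mem_filter.2 ⟨(memT i _).2 ⟨⟨le_rfl, β.lt.le⟩, hendL i⟩, hau⟩⟩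
      set c := ((T i).filter (· < u)).max' h1
      obtain ⟨hcT, hcu⟩ := Finset.mem_filter.1 (Finset.max'_mem _ h1)
      have hL : Edge (img i c u) := ⟨i, c, u, hcT, huT, hcu, fun w hw hwT =>
        absurd (Finset.le_max' _ w (Finset.mem_filter.2 ⟨hwT, hw.2⟩)) (not_le.2 hw.1), rfl⟩
      refine Finset.card_eq_two.2 ⟨img i c u, img i u d, ?_, Finset.ext fun C => ?_⟩
      · intro he
        have hm : β.γ ((u + d) / 2) ∈ img i u d := ⟨_, ⟨by linarith, by linarith⟩, rfl⟩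
        rw [← he] at hm
        obtain ⟨w, hw, hwe⟩ := hm
        linarith [β.inj (sub i c u hcT huT hw) (sub i u d huT hdT
          (⟨by linarith, by linarith⟩ : (u + d) / 2 ∈ Set.Ioo u d)) hwe, hw.2]
      simp only [Finset.mem_filter, Finset.mem_insert, Finset.mem_singleton, memE]
      constructor
      · rintro ⟨hC, hcl⟩
        rcases key C hC hcl with rfl | ⟨c', hc', hc'u, hno, rfl⟩
        · exact Or.inr rfl
        · have : c' = c := le_antisymm (Finset.le_max' _ c' (Finset.mem_filter.2 ⟨hc', hc'u⟩))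
            (le_of_not_gt fun h => hno c ⟨h, hcu⟩ hcT)
          exact Or.inl (this ▸ rfl)
      · rintro (rfl | rfl)
        · exact ⟨hL, incl c u hcT huT hcu (Or.inr rfl)⟩
        · exact ⟨hR, incl u d huT hdT hud (Or.inl rfl)⟩
  -- double counting
  have h := Finset.sum_card_bipartiteAbove_eq_sum_card_bipartiteBelow
    (r := fun s C => s ∈ closure C) (s := S) (t := E)
  simp only [Finset.bipartiteAbove, Finset.bipartiteBelow] at h
  rw [Finset.sum_congr rfl deg, Finset.sum_congr rfl two, Finset.sum_const,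
    Finset.sum_ite, Finset.sum_const, Finset.sum_const] at h
  have hBc : B.ncard = (S.filter (· ∈ B)).card := by
    rw [← Set.ncard_coe_finset]; congr 1; ext x; simpa using fun hx => hBS hx
  rw [hBc, Nat.even_iff]
  simp only [smul_eq_mul] at h
  omega

end

end Vale.Agent.P205.Topo
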